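import Vale.Agent.P167.N.H519.GMono
import Vale.Agent.P167.H635.AnnM
import Vale.Agent.P167.H192.Q.RatC

/-!
# P167, `q < 1`: scale ratios for the arms next to free (wired) boundaries of simple shapes
-/

namespace Vale.Agent.P167.N.MIX

open Finset Filter Topology Vale.Agent.P167.FK Vale.Agent.P167.FKA Vale.Agent.P167.H635
open Vale.Agent.P167.H259 (f_markov)
open Vale.Agent.P167.H519 (Rat ind_le_of_imp)
open Vale.Agent.P167.H192.Q (sq1 sq1_inj mem_im im_Bq im_An)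

variable {Q : ℝ} {x : ℤ × ℤ} {r r1 R1 R L M : ℤ} {A D D' : Finset (ℤ × ℤ)} {p p' : ℝ} {η : Cfg}
  {G : Cfg → ℝ}

/-! ### Products of arm bounds -/

/-- Two annuli. -/
theorem armAt_mul (hQ0 : 0 < Q) (h1 : r ≤ r1) (h2 : r1 ≤ R) (ha : ArmAt Q x r r1 D p)
    (hb : ArmAt Q x r1 R D p') : ArmAt Q x r R D (p * p') := by
  intro η hη hcl
  have hp' := hb.nonneg hQ0
  have hDD : D ∩ Ann x r R = (D ∩ Ann x r R) ∩ Ann x r R := by
    rw [Finset.inter_assoc, Finset.inter_self]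
  have ha' := ha.trace le_rfl h2 hDD
  have hb' := hb.trace h1 le_rfl hDD
  have hcl' : Cl (Ann x r R) (D ∩ Ann x r R) η := fun v hv hvA =>
    hcl v hv fun h => hvA (Finset.mem_inter.2 ⟨h, hv⟩)
  have k1 : Pr Q (D ∩ Ann x r R) η {ω | ArmPx x r R ω} ≤
      Ex Q (D ∩ Ann x r R) η (fun ω => {ω | ArmPx x r r1 ω}.indicator 1 ω *
        {ω | ArmPx x r1 R ω}.indicator 1 ω) := by
    refine Ex_mono hQ0 fun S _ => ?_
    rw [← ind_inter]
    refine ind_le_of_imp fun h => ⟨?_, ?_⟩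
    · exact arm_sub le_rfl h1 h2 h
    · exact arm_sub h1 h2 le_rfl h
  have hl : Loc (Bq x r1) ({ω | ArmPx x r r1 ω}.indicator (1 : Cfg → ℝ)) := loc_arm x r r1
  have k2 := hb'.ex hQ0 hη (hcl'.mono (ann_mono h1 le_rfl))
    (G := {ω | ArmPx x r r1 ω}.indicator 1) (fun _ => ind_nonneg _ _)
    fun ω ω' h => hl ω ω' fun v hv => h v fun h' =>
      (mem_Ann.1 (Finset.mem_inter.1 h').2).2 hv
  have k3 := ha'.pr hQ0 hη (hcl'.mono (ann_mono le_rfl h2))
  have k4 := mul_le_mul_of_nonneg_left k3 hp'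
  have k5 : Ex Q (D ∩ Ann x r R) η ({ω | ArmPx x r r1 ω}.indicator 1) =
    Pr Q (D ∩ Ann x r R) η {ω | ArmPx x r r1 ω} := rfl
  rw [k5] at k2
  linarith

/-- Monotonicity in the radii. -/
theorem armAt_mono (hQ0 : 0 < Q) (h1 : r ≤ r1) (h12 : r1 ≤ R1) (h2 : R1 ≤ R)
    (ha : ArmAt Q x r1 R1 D p) : ArmAt Q x r R D p := by
  intro η hη hcl
  have hDD : D ∩ Ann x r R = (D ∩ Ann x r R) ∩ Ann x r R := by
    rw [Finset.inter_assoc, Finset.inter_self]
  have ha' := ha.trace h1 h2 hDD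
  have hcl' : Cl (Ann x r R) (D ∩ Ann x r R) η := fun v hv hvA =>
    hcl v hv fun h => hvA (Finset.mem_inter.2 ⟨h, hv⟩)
  refine le_trans (Ex_mono hQ0 fun S _ => ?_) (ha'.pr hQ0 hη (hcl'.mono (ann_mono h1 h2)))
  exact ind_le_of_imp fun h => arm_sub h1 h12 h2 h

/-! ### Duality -/

theorem shp_du (h : Shp D x r R) : Shp (D.image sq1) (sq1 x) r R := h.shift fun _ => mem_im

/-- The bound for the dual arms next to a wired boundary. -/
def ArmAtD (Q : ℝ) (x : ℤ × ℤ) (r R : ℤ) (D : Finset (ℤ × ℤ)) (p : ℝ) : Prop :=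
  ArmAt Q (sq1 x) r R (D.image sq1) p

theorem ind_armD (x : ℤ × ℤ) (r R : ℤ) (ω : Cfg) :
    {ω | ArmDx x r R ω}.indicator (1 : Cfg → ℝ) (H519.dui ω) =
      {ω | ArmPx (sq1 x) r R ω}.indicator 1 ω := by
  have e : du (H519.dui ω) = ω := by
    funext v
    simp [H519.dui, FK.du]
  by_cases h1 : ArmPx (FKA.sh x) r R ω
  · rw [Set.indicator_of_mem (show H519.dui ω ∈ {ω | ArmDx x r R ω} from
      arm_dual.2 (by rw [e]; exact h1)), Set.indicator_of_mem
        (show ω ∈ {ω | ArmPx (sq1 x) r R ω} from h1)]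
    rfl
  · rw [Set.indicator_of_notMem (show H519.dui ω ∉ {ω | ArmDx x r R ω} from
      fun h2 => h1 (by have := arm_dual.1 (show ArmDx x r R (H519.dui ω) from h2)
                       rwa [e] at this)),
      Set.indicator_of_notMem (show ω ∉ {ω | ArmPx (sq1 x) r R ω} from h1)]

/-- Open on `B` off `A`. -/
def Op (B A : Finset (ℤ × ℤ)) (ξ : Cfg) : Prop := ∀ v ∈ B, v ∉ A → ξ v = true

theorem Op.du {B : Finset (ℤ × ℤ)} (h : Op B A η) : Cl (B.image sq1) (A.image sq1) (du η) := by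
  intro v hv hvA
  rw [mem_im] at hv hvA
  show (!(η (v.1 - 1, v.2))) = false
  rw [h _ hv hvA]
  rfl

theorem Op.duA (h : Op (Ann x r R) A η) : Cl (Ann (sq1 x) r R) (A.image sq1) (FK.du η) := by
  have e : Ann (sq1 x) r R = (Ann x r R).image sq1 := im_An.symm
  rw [e]
  exact h.du

/-- The conditional form of the dual bound. -/
theorem ArmAtD.ex (hQ0 : 0 < Q) (h : ArmAtD Q x r R D p) (hη : Good η)
    (hop : Op (Ann x r R) D η) (hG0 : ∀ ω, 0 ≤ G ω) (hG : Ind (D ∩ Ann x r R) G) :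
    Ex Q D η (fun ω => G ω * {ω | ArmDx x r R ω}.indicator 1 ω) ≤ p * Ex Q D η G := by
  have e1 : Ex Q D η (fun ω => G ω * {ω | ArmDx x r R ω}.indicator 1 ω) =
      Ex Q (D.image sq1) (du η) (fun ω => G (H519.dui ω) *
        {ω | ArmPx (sq1 x) r R ω}.indicator 1 ω) := by
    refine (H519.Ex_du hQ0 D hη (fun ω => G ω * {ω | ArmDx x r R ω}.indicator 1 ω)).trans ?_
    refine Ex_congr fun S _ => ?_
    rw [ind_armD]
  have e2 : Ex Q D η G = Ex Q (D.image sq1) (du η) (fun ω => G (H519.dui ω)) :=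
    H519.Ex_du hQ0 D hη G
  rw [e1, e2]
  refine ArmAt.ex hQ0 h (f_dual.1 _ hη) hop.duA (fun _ => hG0 _) ?_
  have h3 := H192.Q.ind_du hG
  have e3 : Ann (sq1 x) r R = (Ann x r R).image sq1 := im_An.symm
  rw [e3, ← Finset.image_inter _ _ sq1_inj]
  exact h3

theorem ArmAtD.pr (hQ0 : 0 < Q) (h : ArmAtD Q x r R D p) (hη : Good η)
    (hop : Op (Ann x r R) D η) : Pr Q D η {ω | ArmDx x r R ω} ≤ p := by
  have h1 := h.ex hQ0 hη hop (G := fun _ => 1) (fun _ => zero_le_one) fun _ _ _ => rfl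
  rw [Ex_const hQ0, mul_one] at h1
  simp only [one_mul] at h1
  exact h1

/-! ### Scale ratios -/

/-- A ratio `L` for which the arms have probability at most `1 / 2`, inside and next to a free
boundary. -/
structure RatS (Q : ℝ) (L : ℤ) : Prop where
  /-- the ratio -/
  two : 2 ≤ L
  /-- inside -/
  rat : ∀ (x : ℤ × ℤ) (r R : ℤ) (D : Finset (ℤ × ℤ)) (η : Cfg)
    (G : Cfg → ℝ), 1 ≤ r → L * r ≤ R → Good η → Bq x R \ Bq x r ⊆ D → (∀ ω, 0 ≤ G ω) →
    Ind (Bq x R \ Bq x r) G →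
    Ex Q D η (fun ω => G ω * {ω | ArmPx x r R ω}.indicator 1 ω) ≤ 1 / 2 * Ex Q D η G ∧
    Ex Q D η (fun ω => G ω * {ω | ArmDx x r R ω}.indicator 1 ω) ≤ 1 / 2 * Ex Q D η G
  /-- next to a free boundary -/
  shp : ∀ (x : ℤ × ℤ) (r R : ℤ) (D : Finset (ℤ × ℤ)), 1 ≤ r → L * r ≤ R → Shp D x r R →
    ArmAt Q x r R D (1 / 2)

theorem RatS.toRat (h : RatS Q L) : Rat Q L := ⟨h.two, h.rat⟩

theorem RatS.shpD (h : RatS Q L) (hr : 1 ≤ r) (hR : L * r ≤ R) (hS : Shp D x r R) :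
    ArmAtD Q x r R D (1 / 2) := h.shp _ r R _ hr hR (shp_du hS)

/-- The same for the probability `1 / 4`. -/
structure RatS4 (Q : ℝ) (M : ℤ) : Prop where
  /-- the ratio -/
  one : 1 ≤ M
  /-- next to a free boundary -/
  shp : ∀ (x : ℤ × ℤ) (r R : ℤ) (D : Finset (ℤ × ℤ)), 1 ≤ r → M * r ≤ R → Shp D x r R →
    ArmAt Q x r R D (1 / 4)

/-- The two scales. -/
theorem RatS.quarter (hQ0 : 0 < Q) (hL : RatS Q L) (hr : 1 ≤ r) (hR : L * (L * r) ≤ R)
    (hS : Shp D x r R) : ArmAt Q x r R D (1 / 4) := by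
  have hL2 := hL.two
  have h1 : r ≤ L * r := by nlinarith
  have h2 : L * r ≤ R := by nlinarith
  have h3 := armAt_mul hQ0 h1 h2 (hL.shp x r (L * r) D hr le_rfl (hS.mono le_rfl h2))
    (hL.shp x (L * r) R D (by nlinarith) hR (hS.mono h1 le_rfl))
  norm_num at h3
  exact h3

theorem ratS4_of (hQ0 : 0 < Q) (hL : RatS Q L) : RatS4 Q (L * L) := by
  have hL2 := hL.two
  exact ⟨by nlinarith, fun x r R D hr hR hS => hL.quarter hQ0 hr (by linarith [mul_assoc L L r]) hS⟩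

/-- The shapes contain the full annuli. -/
theorem armDec_of (hQ0 : 0 < Q) {α C : ℝ} (h : ArmShp Q α C) : ArmDec Q α C := by
  intro x r R D η G hr hrR hη hD hG0 hG
  exact (h x r R D hr hrR (shp_full hD)).ex hQ0 hη (fun v hv hvD => absurd (hD hv) hvD) hG0
    (hG.mono Finset.inter_subset_right)

theorem exists_ratS (hQ0 : 0 < Q) (h : ∃ α C : ℝ, 0 < α ∧ 0 < C ∧ ArmShp Q α C) :
    ∃ L : ℤ, RatS Q L := by
  obtain ⟨α, C, hα, hC, hS⟩ := h
  have h1 := armDec_of hQ0 hS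
  have h2 : ArmDecD Q α C := armdecD f_dual hQ0 h1
  have h3 : Tendsto (fun x : ℝ => C * (1 / x) ^ α) atTop (𝓝 (C * 0)) := by
    refine Tendsto.const_mul C ?_
    have := tendsto_rpow_neg_atTop hα
    refine this.congr' ?_
    filter_upwards [eventually_gt_atTop 0] with x hx
    rw [Real.rpow_neg hx.le, one_div, Real.inv_rpow hx.le]
  rw [mul_zero] at h3
  have h4 : ∀ᶠ x : ℝ in atTop, C * (1 / x) ^ α ≤ 1 / 2 :=
    h3.eventually (ge_mem_nhds (by norm_num))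
  obtain ⟨X, hX⟩ := Filter.eventually_atTop.1 h4
  set L : ℤ := max 2 ⌈X⌉ with hL
  have hL2 : 2 ≤ L := le_max_left _ _
  have hLX : X ≤ (L : ℝ) := (Int.le_ceil X).trans (by exact_mod_cast le_max_right _ _)
  have hLb : C * (1 / (L : ℝ)) ^ α ≤ 1 / 2 := hX _ hLX
  have key : ∀ r R : ℤ, 1 ≤ r → L * r ≤ R → C * ((r : ℝ) / R) ^ α ≤ 1 / 2 := by
    intro r R hr hR
    refine le_trans (mul_le_mul_of_nonneg_left (Real.rpow_le_rpow ?_ ?_ hα.le) hC.le) hLb
    · have : (0 : ℝ) < r := by exact_mod_cast (by omega : 0 < r)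
      have : (0 : ℝ) < R := by exact_mod_cast (by nlinarith : 0 < R)
      positivity
    · have hr0 : (0 : ℝ) < r := by exact_mod_cast (by omega : 0 < r)
      have hR0 : (0 : ℝ) < R := by exact_mod_cast (by nlinarith : 0 < R)
      have hL0 : (0 : ℝ) < L := by exact_mod_cast (by omega : 0 < L)
      rw [div_le_div_iff₀ hR0 hL0, one_mul, mul_comm]
      exact_mod_cast hR
  have hrR : ∀ r R : ℤ, 1 ≤ r → L * r ≤ R → r ≤ R := fun r R hr hR => by nlinarith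
  refine ⟨L, hL2, fun x r R D η G hr hR hη hD hG0 hG => ⟨?_, ?_⟩, fun x r R D hr hR hsh => ?_⟩
  · exact (h1 x r R D η G hr (hrR r R hr hR) hη hD hG0 hG).trans
      (mul_le_mul_of_nonneg_right (key r R hr hR) (Ex_nonneg hQ0 fun _ _ => hG0 _))
  · exact (h2 x r R D η G hr (hrR r R hr hR) hη hD hG0 hG).trans
      (mul_le_mul_of_nonneg_right (key r R hr hR) (Ex_nonneg hQ0 fun _ _ => hG0 _))
  · exact (hS x r R D hr (hrR r R hr hR) hsh).le (key r R hr hR)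

end Vale.Agent.P167.N.MIX
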