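import Vale.Agent.P167.N.Base.ArmShp
import Vale.Agent.P167.N.MIX.RatS

/-!
# P167, `q < 1`: the scale ratio from the Kit
-/

namespace Vale.Agent.P167.N

open Vale.Agent.P167.N.MIX

theorem Kit.ratS {Q : ℝ} (K : Kit Q) : ∃ L : ℤ, RatS Q L := exists_ratS K.pos K.armShp

end Vale.Agent.P167.N
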