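import Vale.Agent.P167.H440.ByBdy
import Vale.Agent.P167.H506.Q.Rm
import Vale.Agent.P167.H562.Q.CB2

/-!
# Ratio mixing at a junction, `q ≤ 1`

`AmShp`: decay of the arms which use only the squares of the domain, in the shapes `Shp`. `rm_jun`:
the form `RM`; `oneArc_flat`: a flat side with at most one junction.
-/

namespace Vale.Agent.P167.N.MIX

open Finset Relation Vale.Agent.P167.FK Vale.Agent.P167.FKA Vale.Agent.P167.H635
  Vale.Agent.P167.H440
open Vale.Agent.P145.FB (PStep PConn)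
open Vale.Agent.P167.H506.Q (RM)
open Vale.Agent.P167.H519 (pa_cor pb_cor pa_even pb_even)
open Vale.Agent.P167.H562.QM (QC OneP)

variable {Q : ℝ} {x : ℤ × ℤ} {r R : ℤ} {D K : Finset (ℤ × ℤ)} {κ : Cfg} {p : ℝ}

/-- **Decay of the arms which use only the squares of the domain**, all configurations elsewhere. -/
def AmShp (Q α C : ℝ) : Prop := ∀ (x : ℤ × ℤ) (r R : ℤ) (D : Finset (ℤ × ℤ)), 1 ≤ r → r ≤ R →
  Shp D x r R → AmAt Q x r R D (C * ((r : ℝ) / R) ^ α)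

/-- One cluster which touches the outside of the box. -/
theorem oneArc_of (h : OneP (Bq x R) D κ) (h2 : (Hs x R D κ).Nonempty →
    ∃ s ∈ Hs x R D κ, R ≤ nm (s - x)) : OneArc x R D κ := by
  refine ⟨?_, h2⟩
  rintro s ⟨hs, v, v1, v2, v3, v4⟩ t ⟨ht, w, w1, w2, w3, w4⟩
  exact h v v1 v2 v3 w w1 w2 w3 s t hs ht v4 w4

/-- A corner of a square of the left side of the box is far. -/
theorem corner_left {v : ℤ × ℤ} (h : v.1 = x.1 - R) :
    ∃ s : ℤ × ℤ, Even (s.1 + s.2) ∧ Cor v s ∧ R ≤ nm (s - x) := by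
  rcases Int.even_or_odd (v.1 + v.2) with hp | hp
  · exact ⟨v, hp, by simp [Cor], far_iff.2 (by omega)⟩
  · refine ⟨(v.1, v.2 + 1), ?_, by simp [Cor], far_iff.2 (by simp only; omega)⟩
    rw [Int.even_iff]
    rw [Int.odd_iff] at hp
    simp only
    omega

/-- A corner of a square of the right side of the box is far. -/
theorem corner_right {v : ℤ × ℤ} (h : v.1 + 1 = x.1 + R) :
    ∃ s : ℤ × ℤ, Even (s.1 + s.2) ∧ Cor v s ∧ R ≤ nm (s - x) := by
  rcases Int.even_or_odd (v.1 + v.2) with hp | hp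
  · refine ⟨(v.1 + 1, v.2 + 1), ?_, by simp [Cor], far_iff.2 (by simp only; omega)⟩
    rw [Int.even_iff] at *
    simp only
    omega
  · refine ⟨(v.1 + 1, v.2), ?_, by simp [Cor], far_iff.2 (by simp only; omega)⟩
    rw [Int.even_iff]
    rw [Int.odd_iff] at hp
    simp only
    omega

/-- **A flat side with at most one junction.** -/
theorem oneArc_flat {h b : ℤ} {pl pr : Bool} (hD : ∀ v ∈ Bq x R, v ∈ D ↔ h ≤ v.2)
    (hκ : ∀ v ∈ Bq x R, v ∉ D → κ v = if v.1 < b then pl else pr) : OneArc x R D κ := by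
  have hH : ∀ v, (v ∈ Bq x R ∧ v ∉ D ∧ κ v = true) ↔
      v ∈ Bq x R ∧ v.2 < h ∧ (if v.1 < b then pl else pr) = true := by
    intro v
    constructor
    · rintro ⟨h1, h2, h3⟩
      rw [hκ v h1 h2] at h3
      exact ⟨h1, not_le.1 fun h4 => h2 ((hD v h1).2 h4), h3⟩
    · rintro ⟨h1, h2, h3⟩
      have h4 : v ∉ D := fun h5 => absurd ((hD v h1).1 h5) (by omega)
      exact ⟨h1, h4, by rw [hκ v h1 h4]; exact h3⟩
  have hF : ∀ z : ℤ × ℤ, z ∈ Bq x R → z.2 < h → (if z.1 < b then pl else pr) = true →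
      z ∈ {z | z ∈ Bq x R ∧ z ∉ D ∧ κ z = true} := fun z h1 h2 h3 => (hH z).2 ⟨h1, h2, h3⟩
  refine oneArc_of ?_ ?_
  · intro v hv1 hvD hvκ w hw1 hwD hwκ
    obtain ⟨-, hv2, hv3⟩ := (hH v).1 ⟨hv1, hvD, hvκ⟩
    obtain ⟨-, hw2, hw3⟩ := (hH w).1 ⟨hw1, hwD, hwκ⟩
    have hv1' := mem_Bq.1 hv1
    have hw1' := mem_Bq.1 hw1
    cases pl <;> cases pr
    · simp at hv3
    · have e1 : b ≤ v.1 := by
        by_contra hc'
        rw [if_pos (by omega)] at hv3
        exact absurd hv3 (by simp)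
      have e2 : b ≤ w.1 := by
        by_contra hc'
        rw [if_pos (by omega)] at hw3
        exact absurd hw3 (by simp)
      refine QC.rect (x0 := max (x.1 - R) b) (x1 := x.1 + R) (y0 := x.2 - R)
        (y1 := min (x.2 + R) h) (fun z h1 h2 h3 h4 => hF z ?_ ?_ ?_) ?_ ?_
      · rw [mem_Bq]; omega
      · omega
      · rw [if_neg (by omega)]
      · omega
      · omega
    · have e1 : v.1 < b := by
        by_contra hc'
        rw [if_neg hc'] at hv3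
        exact absurd hv3 (by simp)
      have e2 : w.1 < b := by
        by_contra hc'
        rw [if_neg hc'] at hw3
        exact absurd hw3 (by simp)
      refine QC.rect (x0 := x.1 - R) (x1 := min (x.1 + R) b) (y0 := x.2 - R)
        (y1 := min (x.2 + R) h) (fun z h1 h2 h3 h4 => hF z ?_ ?_ ?_) ?_ ?_
      · rw [mem_Bq]; omega
      · omega
      · rw [if_pos (by omega)]
      · omega
      · omega
    · refine QC.rect (x0 := x.1 - R) (x1 := x.1 + R) (y0 := x.2 - R)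
        (y1 := min (x.2 + R) h) (fun z h1 h2 h3 h4 => hF z ?_ ?_ ?_) ?_ ?_
      · rw [mem_Bq]; omega
      · omega
      · simp
      · omega
      · omega
  · rintro ⟨t, -, v, hv1, hv2, hv3, -⟩
    obtain ⟨-, hv4, hv5⟩ := (hH v).1 ⟨hv1, hv2, hv3⟩
    have hv1' := mem_Bq.1 hv1
    by_cases hb : v.1 < b
    · rw [if_pos hb] at hv5
      obtain ⟨s, h1, h2, h3⟩ := corner_left (R := R) (x := x) (v := (x.1 - R, v.2)) rfl
      obtain ⟨k1, k2, k3⟩ := hF (x.1 - R, v.2) (by rw [mem_Bq]; simp only; omega) hv4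
        (by rw [if_pos (by simp only; omega)]; exact hv5)
      exact ⟨s, ⟨h1, _, k1, k2, k3, h2⟩, h3⟩
    · rw [if_neg hb] at hv5
      obtain ⟨s, h1, h2, h3⟩ := corner_right (R := R) (x := x) (v := (x.1 + R - 1, v.2))
        (by simp only; omega)
      obtain ⟨k1, k2, k3⟩ := hF (x.1 + R - 1, v.2) (by rw [mem_Bq]; simp only; omega) hv4
        (by rw [if_neg (by simp only; omega)]; exact hv5)
      exact ⟨s, ⟨h1, _, k1, k2, k3, h2⟩, h3⟩

/-- **Ratio mixing at a junction**, the form `RM`. -/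
theorem rm_jun (hQ0 : 0 < Q) (hQ1 : Q ≤ 1) (hrR : r ≤ R)
    (h1 : OneArc x R (Bq x R \ K) κ) (hp : AmAt Q x r R (Bq x R \ K) p) (hp1 : p < 1) :
    RM Q K κ (Bq x R \ K) (Bq x r \ K) ((1 / (1 - p)) ^ 2) := by
  intro ξ ξ' hξ hξ' hk hk' F hF0 hF
  have hag : ∀ ξ : Cfg, (∀ v ∈ K, ξ v = κ v) → Ag x R (Bq x R \ K) κ ξ := fun ξ h v hv hvD =>
    h v (by
      by_contra h2
      exact hvD (Finset.mem_sdiff.2 ⟨hv, h2⟩))
  have hV : Bq x r \ K ⊆ Bq x r := Finset.sdiff_subset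
  have hVD : Bq x r \ K ⊆ Bq x R \ K := Finset.sdiff_subset_sdiff (bq_mono hrR) le_rfl
  have h := jun_two hQ0 hQ1 hrR hp hp1.le rfl hVD hV hF0 hF h1 hξ hξ' (hag ξ hk) (hag ξ' hk')
  have h3 : 0 < 1 - p := by linarith
  have h4 : Ex Q (Bq x R \ K) ξ F =
      (1 / (1 - p)) ^ 2 * ((1 - p) ^ 2 * Ex Q (Bq x R \ K) ξ F) := by
    field_simp
  rw [h4]
  exact mul_le_mul_of_nonneg_left h (by positivity)

/-- **Ratio mixing at a flat junction.** -/
theorem rm_flat_of (hQ0 : 0 < Q) (hQ1 : Q ≤ 1) {α C : ℝ} (ha : AmShp Q α C) (h b : ℤ)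
    (pl pr : Bool) (x : ℤ × ℤ) (r R : ℤ) (K : Finset (ℤ × ℤ)) (κ : Cfg) (hr : 1 ≤ r) (hrR : r ≤ R)
    (hK : ∀ v ∈ Bq x R, v ∈ K ↔ v.2 < h)
    (hκ : ∀ v ∈ K, v ∈ Bq x R → κ v = if v.1 < b then pl else pr)
    (hε : C * ((r : ℝ) / R) ^ α < 1) :
    RM Q K κ (Bq x R \ K) (Bq x r \ K) ((1 / (1 - C * ((r : ℝ) / R) ^ α)) ^ 2) := by
  have e1 : Bq x R \ K = Bq x R \ (Bq x R ∩ K) := by
    ext v
    simp only [Finset.mem_sdiff, Finset.mem_inter]
    tauto
  have e2 : Bq x r \ K = Bq x r \ (Bq x R ∩ K) := by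
    ext v
    have : v ∈ Bq x r → v ∈ Bq x R := fun h => bq_mono hrR h
    simp only [Finset.mem_sdiff, Finset.mem_inter]
    tauto
  have hD : ∀ v ∈ Bq x R, v ∈ Bq x R \ (Bq x R ∩ K) ↔ h ≤ v.2 := by
    intro v hv
    have := hK v hv
    simp only [Finset.mem_sdiff, Finset.mem_inter, hv, true_and, this, not_lt]
  have hm := rm_jun (K := Bq x R ∩ K) hQ0 hQ1 hrR (oneArc_flat hD
    fun v hv hvD => hκ v ((hK v hv).2 (not_le.1 fun h4 => hvD ((hD v hv).2 h4))) hv)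
    (ha x r R _ hr hrR (shp_ge2 (c := h) fun v hv => hD v (ann_box hv))) hε
  rw [e1, e2]
  intro ξ ξ' hξ hξ' hk hk'
  exact hm ξ ξ' hξ hξ' (fun v hv => hk v (Finset.mem_inter.1 hv).2)
    fun v hv => hk' v (Finset.mem_inter.1 hv).2

end Vale.Agent.P167.N.MIX
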